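import Vale.Agent.P062.Final
import Vale.Agent.P062.S6x0

/-- Maker wins the Snaky achievement game on the initially empty planar board. -/
theorem Vale.Agent.Results.P062.Snaky.result : Vale.Agent.P062.MakerWins :=
  Vale.Agent.P062.makerWins_of_W Vale.Agent.P062.p15839
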